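import Mathlib.LinearAlgebra.Span.Basic
import Mathlib.Algebra.Module.Equiv.Basic
import Mathlib.Algebra.Module.Submodule.Lattice
import Mathlib.GroupTheory.FreeGroup.Basic
import Mathlib.Algebra.BigOperators.Group.List.Basic
import Mathlib.Algebra.Module.LinearMap.End
import Mathlib.Tactic.Module
import Mathlib.Tactic.NoncommRing
import Mathlib.Tactic.Abel
import Mathlib.LinearAlgebra.GeneralLinearGroup.Basic

/-!
# P300, block [LA-W]: the words lemma

`M` a module with a decreasing filtration `F n`, `T0`, `T1` two automorphisms with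
`T0 - 1`, `T1 - 1` and the same for the inverses raising the filtration by one,
`D 0 = T0 - 1`, `D (i+1) = T1 D_i T1^-1 - D_i`,
`Op L j` = (product of the `D i`, `i` in `L`) * `(T1 - 1)^j`.
For every `v` in the group generated by `T0`, `T1` and every `a` in `F 0`,
`v a` is in the span of the `Op L j a` plus `F n`, for every `n`.
-/

namespace Vale.Agent.P300.H615

variable {k M : Type*} [CommRing k] [AddCommGroup M] [Module k M]

/-- `Q` raises the filtration `F` by `r`. -/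
def Raise (F : ℕ → Submodule k M) (r : ℕ) (Q : Module.End k M) : Prop :=
  ∀ n, ∀ a ∈ F n, Q a ∈ F (n + r)

section raise

variable {F : ℕ → Submodule k M}

theorem Raise.mul {r s : ℕ} {P Q : Module.End k M} (hP : Raise F r P) (hQ : Raise F s Q) :
    Raise F (r + s) (P * Q) := by
  intro n a ha
  have h := hP _ _ (hQ n a ha)
  rw [Module.End.mul_apply]
  have e : n + (r + s) = n + s + r := by omega
  rw [e]
  exact h

theorem Raise.add {r : ℕ} {P Q : Module.End k M} (hP : Raise F r P) (hQ : Raise F r Q) :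
    Raise F r (P + Q) := by
  intro n a ha
  rw [LinearMap.add_apply]
  exact Submodule.add_mem _ (hP n a ha) (hQ n a ha)

theorem Raise.neg {r : ℕ} {P : Module.End k M} (hP : Raise F r P) : Raise F r (-P) := by
  intro n a ha
  rw [LinearMap.neg_apply]
  exact Submodule.neg_mem _ (hP n a ha)

theorem Raise.sub {r : ℕ} {P Q : Module.End k M} (hP : Raise F r P) (hQ : Raise F r Q) :
    Raise F r (P - Q) := by
  intro n a ha
  rw [LinearMap.sub_apply]
  exact Submodule.sub_mem _ (hP n a ha) (hQ n a ha)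

theorem Raise.smul {r : ℕ} {P : Module.End k M} (c : k) (hP : Raise F r P) :
    Raise F r (c • P) := by
  intro n a ha
  rw [LinearMap.smul_apply]
  exact Submodule.smul_mem _ _ (hP n a ha)

theorem Raise.zero {r : ℕ} : Raise F r (0 : Module.End k M) := by
  intro n a _
  rw [LinearMap.zero_apply]
  exact Submodule.zero_mem _

theorem Raise.one : Raise F 0 (1 : Module.End k M) := by
  intro n a ha
  rw [Module.End.one_apply]
  exact ha

theorem Raise.mono (hF : ∀ n, F (n + 1) ≤ F n) {r s : ℕ} (h : s ≤ r) {P : Module.End k M}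
    (hP : Raise F r P) : Raise F s P := by
  intro n a ha
  exact (antitone_nat_of_succ_le hF) (by omega) (hP n a ha)

theorem Raise.pow {r : ℕ} {P : Module.End k M} (hP : Raise F r P) (j : ℕ) :
    Raise F (r * j) (P ^ j) := by
  induction j with
  | zero => simpa using Raise.one
  | succ j ih =>
    rw [pow_succ, Nat.mul_succ]
    exact ih.mul hP

theorem Raise.list_prod (c : ℕ → ℕ) (D : ℕ → Module.End k M) (hD : ∀ i, Raise F (c i) (D i))
    (L : List ℕ) : Raise F (L.map c).sum (L.map D).prod := by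
  induction L with
  | nil => simpa using Raise.one
  | cons i L ih =>
    rw [List.map_cons, List.sum_cons, List.map_cons, List.prod_cons]
    exact (hD i).mul ih

end raise

/-- a linear automorphism as an endomorphism -/
abbrev toE (T : M ≃ₗ[k] M) : Module.End k M := (T : M →ₗ[k] M)

/-- `D 0 = T0 - 1`, `D (i+1) = T1 D_i T1^-1 - D_i`. -/
def Dop (T0 T1 : M ≃ₗ[k] M) : ℕ → Module.End k M
  | 0 => toE T0 - 1
  | (i + 1) => toE T1 * Dop T0 T1 i * toE T1.symm - Dop T0 T1 i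

/-- the words -/
def Op (T0 T1 : M ≃ₗ[k] M) (L : List ℕ) (j : ℕ) : Module.End k M :=
  (L.map (Dop T0 T1)).prod * (toE T1 - 1) ^ j

theorem toE_symm_mul (T : M ≃ₗ[k] M) : toE T.symm * toE T = 1 := by
  ext a
  simp

theorem toE_mul_symm (T : M ≃ₗ[k] M) : toE T * toE T.symm = 1 := by
  ext a
  simp

theorem Op_nil (T0 T1 : M ≃ₗ[k] M) (j : ℕ) : Op T0 T1 [] j = (toE T1 - 1) ^ j := by
  simp [Op]

theorem Op_cons (T0 T1 : M ≃ₗ[k] M) (i : ℕ) (L : List ℕ) (j : ℕ) :
    Op T0 T1 (i :: L) j = Dop T0 T1 i * Op T0 T1 L j := by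
  simp [Op, mul_assoc]

theorem T1_mul_D (T0 T1 : M ≃ₗ[k] M) (i : ℕ) :
    toE T1 * Dop T0 T1 i = (Dop T0 T1 i + Dop T0 T1 (i + 1)) * toE T1 := by
  have h : Dop T0 T1 (i + 1) = toE T1 * Dop T0 T1 i * toE T1.symm - Dop T0 T1 i := rfl
  rw [h]
  have e : Dop T0 T1 i + (toE T1 * Dop T0 T1 i * toE T1.symm - Dop T0 T1 i)
      = toE T1 * Dop T0 T1 i * toE T1.symm := by abel
  rw [e, mul_assoc, toE_symm_mul, mul_one]

/-- the span of the words, in the endomorphism ring -/
def WSpan (T0 T1 : M ≃ₗ[k] M) : Submodule k (Module.End k M) :=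
  Submodule.span k (Set.range (fun p : List ℕ × ℕ => Op T0 T1 p.1 p.2))

theorem Op_mem_WSpan (T0 T1 : M ≃ₗ[k] M) (L : List ℕ) (j : ℕ) :
    Op T0 T1 L j ∈ WSpan T0 T1 := Submodule.subset_span ⟨(L, j), rfl⟩

theorem mul_mem_of_gen (T0 T1 : M ≃ₗ[k] M) (Q : Module.End k M)
    (h : ∀ L j, Q * Op T0 T1 L j ∈ WSpan T0 T1) :
    ∀ x ∈ WSpan T0 T1, Q * x ∈ WSpan T0 T1 := by
  intro x hx
  have hle : WSpan T0 T1 ≤ (WSpan T0 T1).comap (LinearMap.mulLeft k Q) := by
    apply Submodule.span_le.2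
    rintro _ ⟨p, rfl⟩
    exact h p.1 p.2
  exact hle hx

theorem D_mul_mem (T0 T1 : M ≃ₗ[k] M) (i : ℕ) :
    ∀ x ∈ WSpan T0 T1, Dop T0 T1 i * x ∈ WSpan T0 T1 := by
  apply mul_mem_of_gen
  intro L j
  rw [← Op_cons]
  exact Op_mem_WSpan _ _ _ _

theorem T0_mul_mem (T0 T1 : M ≃ₗ[k] M) :
    ∀ x ∈ WSpan T0 T1, toE T0 * x ∈ WSpan T0 T1 := by
  intro x hx
  have h : toE T0 * x = x + Dop T0 T1 0 * x := by
    have : Dop T0 T1 0 = toE T0 - 1 := rfl
    rw [this, sub_mul, one_mul]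
    abel
  rw [h]
  exact Submodule.add_mem _ hx (D_mul_mem _ _ 0 x hx)

theorem T1_mul_mem (T0 T1 : M ≃ₗ[k] M) :
    ∀ x ∈ WSpan T0 T1, toE T1 * x ∈ WSpan T0 T1 := by
  apply mul_mem_of_gen
  intro L j
  induction L with
  | nil =>
    have h : toE T1 * Op T0 T1 [] j = Op T0 T1 [] j + Op T0 T1 [] (j + 1) := by
      rw [Op_nil, Op_nil, pow_succ', sub_mul, one_mul]
      abel
    rw [h]
    exact Submodule.add_mem _ (Op_mem_WSpan _ _ _ _) (Op_mem_WSpan _ _ _ _)
  | cons i L ih =>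
    rw [Op_cons, ← mul_assoc, T1_mul_D, mul_assoc, add_mul]
    exact Submodule.add_mem _ (D_mul_mem _ _ _ _ ih) (D_mul_mem _ _ _ _ ih)

/-- the submodule `span {Op L j a} + F n` -/
def WS (F : ℕ → Submodule k M) (T0 T1 : M ≃ₗ[k] M) (a : M) (n : ℕ) : Submodule k M :=
  Submodule.span k (Set.range (fun p : List ℕ × ℕ => Op T0 T1 p.1 p.2 a)) ⊔ F n

/-- the hypotheses on the pair `T0`, `T1` and the filtration -/
structure Uni (F : ℕ → Submodule k M) (T0 T1 : M ≃ₗ[k] M) : Prop where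
  anti : ∀ n, F (n + 1) ≤ F n
  h0 : ∀ n, ∀ a ∈ F n, T0 a - a ∈ F (n + 1)
  h0' : ∀ n, ∀ a ∈ F n, T0.symm a - a ∈ F (n + 1)
  h1 : ∀ n, ∀ a ∈ F n, T1 a - a ∈ F (n + 1)
  h1' : ∀ n, ∀ a ∈ F n, T1.symm a - a ∈ F (n + 1)

section uni

variable {F : ℕ → Submodule k M} {T0 T1 : M ≃ₗ[k] M}

theorem mem_of_sub (hF : ∀ n, F (n + 1) ≤ F n) {T : M ≃ₗ[k] M}
    (h : ∀ n, ∀ a ∈ F n, T a - a ∈ F (n + 1)) (n : ℕ) (a : M) (ha : a ∈ F n) : T a ∈ F n := by
  have := Submodule.add_mem _ (hF n (h n a ha)) ha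
  simpa using this

theorem raise_sub_one {T : M ≃ₗ[k] M} (h : ∀ n, ∀ a ∈ F n, T a - a ∈ F (n + 1)) :
    Raise F 1 (toE T - 1) := by
  intro n a ha
  have := h n a ha
  simpa using this

theorem raise_toE (hF : ∀ n, F (n + 1) ≤ F n) {T : M ≃ₗ[k] M}
    (h : ∀ n, ∀ a ∈ F n, T a - a ∈ F (n + 1)) : Raise F 0 (toE T) := by
  intro n a ha
  exact mem_of_sub hF h n a ha

/-- `D i` raises by `i + 1`. -/
theorem Uni.raise_D (U : Uni F T0 T1) (i : ℕ) : Raise F (i + 1) (Dop T0 T1 i) := by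
  induction i with
  | zero => exact raise_sub_one U.h0
  | succ i ih =>
    have e : Dop T0 T1 (i + 1) = (toE T1 - 1) * Dop T0 T1 i * toE T1.symm
        + Dop T0 T1 i * (toE T1.symm - 1) := by
      have h : Dop T0 T1 (i + 1) = toE T1 * Dop T0 T1 i * toE T1.symm - Dop T0 T1 i := rfl
      rw [h]
      noncomm_ring
    rw [e]
    apply Raise.add
    · have h1 := ((raise_sub_one U.h1).mul ih).mul (raise_toE U.anti U.h1')
      have e2 : 1 + (i + 1) + 0 = i + 1 + 1 := by omega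
      rwa [e2] at h1
    · exact ih.mul (raise_sub_one U.h1')

theorem Uni.raise_Op (U : Uni F T0 T1) (L : List ℕ) (j : ℕ) :
    Raise F ((L.map (· + 1)).sum + j) (Op T0 T1 L j) := by
  have h1 := Raise.list_prod (F := F) (· + 1) (Dop T0 T1) U.raise_D L
  have h2 := (raise_sub_one U.h1).pow j
  rw [Nat.one_mul] at h2
  exact h1.mul h2

/-- the same for a filtration for which only `D i` is controlled and `T1` preserves. -/
theorem raise_Op_of {G : ℕ → Submodule k M} (c : ℕ → ℕ) (hD : ∀ i, Raise G (c i) (Dop T0 T1 i))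
    (hT : Raise G 0 (toE T1)) (L : List ℕ) (j : ℕ) :
    Raise G (L.map c).sum (Op T0 T1 L j) := by
  have h1 := Raise.list_prod (F := G) c (Dop T0 T1) hD L
  have h2 := (hT.sub (Raise.one (F := G))).pow j
  rw [Nat.zero_mul] at h2
  exact h1.mul h2

/-- If `D i` raises by `r` then so does `D (i + 1)` (when `T1`, `T1^-1` preserve). -/
theorem raise_D_succ {G : ℕ → Submodule k M} {r i : ℕ} (hT : Raise G 0 (toE T1))
    (hT' : Raise G 0 (toE T1.symm)) (hD : Raise G r (Dop T0 T1 i)) :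
    Raise G r (Dop T0 T1 (i + 1)) := by
  have h : Dop T0 T1 (i + 1) = toE T1 * Dop T0 T1 i * toE T1.symm - Dop T0 T1 i := rfl
  rw [h]
  have h1 := (hT.mul hD).mul hT'
  have e : 0 + r + 0 = r := by omega
  rw [e] at h1
  exact h1.sub hD

/-- raising by `c i`, where `c i = 2` for `i ≤ 2` and `3` afterwards. -/
theorem raise_D_cc {G : ℕ → Submodule k M} (hT : Raise G 0 (toE T1))
    (hT' : Raise G 0 (toE T1.symm)) (h2 : Raise G 2 (Dop T0 T1 0))
    (h3 : Raise G 3 (Dop T0 T1 3)) (i : ℕ) :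
    Raise G (if i ≤ 2 then 2 else 3) (Dop T0 T1 i) := by
  have h2' : ∀ i, Raise G 2 (Dop T0 T1 i) := by
    intro i
    induction i with
    | zero => exact h2
    | succ i ih => exact raise_D_succ hT hT' ih
  have h3' : ∀ i, Raise G 3 (Dop T0 T1 (i + 3)) := by
    intro i
    induction i with
    | zero => exact h3
    | succ i ih =>
      have e : i + 1 + 3 = i + 3 + 1 := by omega
      rw [e]
      exact raise_D_succ hT hT' ih
  split_ifs with h
  · exact h2' i
  · obtain ⟨m, rfl⟩ : ∃ m, i = m + 3 := ⟨i - 3, by omega⟩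
    exact h3' m

/-- the span of the words applied to `a` -/
theorem apply_mem_span (a : M) {x : Module.End k M} (hx : x ∈ WSpan T0 T1) :
    x a ∈ Submodule.span k (Set.range (fun p : List ℕ × ℕ => Op T0 T1 p.1 p.2 a)) := by
  have hle : WSpan T0 T1 ≤ (Submodule.span k (Set.range
      (fun p : List ℕ × ℕ => Op T0 T1 p.1 p.2 a))).comap (LinearMap.applyₗ a) := by
    apply Submodule.span_le.2
    rintro _ ⟨p, rfl⟩
    exact Submodule.subset_span ⟨p, rfl⟩
  exact hle hx

theorem Uni.WS_le (U : Uni F T0 T1) {a : M} (ha : a ∈ F 0) (n : ℕ) :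
    WS F T0 T1 a n ≤ F 0 := by
  have hA : Antitone F := antitone_nat_of_succ_le U.anti
  apply sup_le
  · apply Submodule.span_le.2
    rintro _ ⟨p, rfl⟩
    exact hA (Nat.zero_le _) (U.raise_Op p.1 p.2 0 a ha)
  · exact hA (Nat.zero_le n)

theorem WS_stable (Q : Module.End k M) (a : M) (n : ℕ)
    (hQ : ∀ x ∈ WSpan T0 T1, Q * x ∈ WSpan T0 T1) (hn : ∀ b ∈ F n, Q b ∈ F n) :
    ∀ u ∈ WS F T0 T1 a n, Q u ∈ WS F T0 T1 a n := by
  intro u hu
  have hle : WS F T0 T1 a n ≤ (WS F T0 T1 a n).comap Q := by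
    apply sup_le
    · apply Submodule.span_le.2
      rintro _ ⟨p, rfl⟩
      have h := apply_mem_span a (hQ _ (Op_mem_WSpan T0 T1 p.1 p.2))
      exact (le_sup_left : _ ≤ WS F T0 T1 a n) h
    · intro b hb
      exact (le_sup_right : _ ≤ WS F T0 T1 a n) (hn b hb)
  exact hle hu

/-- the inverse: if `T` preserves `S`, `T - 1` raises, then `T^-1` preserves `S`. -/
theorem symm_stable (hF : ∀ n, F (n + 1) ≤ F n) {T : M ≃ₗ[k] M}
    (h : ∀ n, ∀ a ∈ F n, T a - a ∈ F (n + 1)) (h' : ∀ n, ∀ a ∈ F n, T.symm a - a ∈ F (n + 1))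
    (S : Submodule k M) (n : ℕ) (hS0 : S ≤ F 0) (hSn : F n ≤ S) (hT : ∀ u ∈ S, T u ∈ S) :
    ∀ u ∈ S, T.symm u ∈ S := by
  have key : ∀ m i, m + i = n → ∀ u ∈ S, u ∈ F i → T.symm u ∈ S := by
    intro m
    induction m with
    | zero =>
      intro i hi u _ hui
      have : i = n := by omega
      subst this
      exact hSn (mem_of_sub hF h' _ _ hui)
    | succ m ih =>
      intro i hi u hu hui
      have h2 : T u - u ∈ S := Submodule.sub_mem _ (hT u hu) hu
      have h3 := ih (i + 1) (by omega) (T u - u) h2 (h i u hui)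
      have e : T.symm u = u - T.symm (T u - u) := by
        rw [map_sub, LinearEquiv.symm_apply_apply]
        abel
      rw [e]
      exact Submodule.sub_mem _ hu h3
  intro u hu
  exact key n 0 (by omega) u hu (hS0 hu)

/-- **The words lemma.** -/
theorem Uni.words (U : Uni F T0 T1) {a : M} (ha : a ∈ F 0) (n : ℕ) (v : M ≃ₗ[k] M)
    (hv : v ∈ Subgroup.closure ({T0, T1} : Set (M ≃ₗ[k] M))) :
    v a ∈ WS F T0 T1 a n := by
  have hA : Antitone F := antitone_nat_of_succ_le U.anti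
  have s0 : ∀ u ∈ WS F T0 T1 a n, T0 u ∈ WS F T0 T1 a n :=
    WS_stable (toE T0) a n (T0_mul_mem T0 T1) (fun b hb => mem_of_sub U.anti U.h0 n b hb)
  have s1 : ∀ u ∈ WS F T0 T1 a n, T1 u ∈ WS F T0 T1 a n :=
    WS_stable (toE T1) a n (T1_mul_mem T0 T1) (fun b hb => mem_of_sub U.anti U.h1 n b hb)
  have s0' := symm_stable U.anti U.h0 U.h0' (WS F T0 T1 a n) n (U.WS_le ha n) le_sup_right s0
  have s1' := symm_stable U.anti U.h1 U.h1' (WS F T0 T1 a n) n (U.WS_le ha n) le_sup_right s1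
  have hin : a ∈ WS F T0 T1 a n := by
    apply (le_sup_left : _ ≤ WS F T0 T1 a n)
    apply Submodule.subset_span
    exact ⟨([], 0), by simp [Op]⟩
  have key : ∀ w ∈ Subgroup.closure ({T0, T1} : Set (M ≃ₗ[k] M)),
      (∀ u ∈ WS F T0 T1 a n, w u ∈ WS F T0 T1 a n) ∧
      (∀ u ∈ WS F T0 T1 a n, w.symm u ∈ WS F T0 T1 a n) := by
    intro w hw
    induction hw using Subgroup.closure_induction with
    | mem x hx =>
      rcases hx with rfl | hx
      · exact ⟨s0, s0'⟩
      · rcases Set.mem_singleton_iff.1 hx with rfl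
        exact ⟨s1, s1'⟩
    | one => exact ⟨fun u hu => hu, fun u hu => hu⟩
    | mul x y _ _ hx hy =>
      exact ⟨fun u hu => hx.1 _ (hy.1 u hu), fun u hu => hy.2 _ (hx.2 u hu)⟩
    | inv x _ hx => exact ⟨hx.2, hx.1⟩
  exact (key v hv).1 a hin

/-- the same for a representation of a free group (or any group generated by two elements) -/
theorem Uni.words_rep (U : Uni F T0 T1) {a : M} (ha : a ∈ F 0) (n : ℕ)
    {V : Type*} [Group V] (ρ : V →* (M ≃ₗ[k] M)) (t0 t1 : V)
    (hgen : Subgroup.closure ({t0, t1} : Set V) = ⊤) (h0 : ρ t0 = T0) (h1 : ρ t1 = T1) (v : V) :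
    ρ v a ∈ WS F T0 T1 a n := by
  apply U.words ha n
  have hv : v ∈ Subgroup.closure ({t0, t1} : Set V) := by rw [hgen]; trivial
  have h := Subgroup.mem_map_of_mem ρ hv
  rw [MonoidHom.map_closure] at h
  have e : (ρ '' {t0, t1} : Set (M ≃ₗ[k] M)) = {T0, T1} := by
    rw [Set.image_pair, h0, h1]
  rwa [e] at h

end uni

end Vale.Agent.P300.H615
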